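import Vale.Agent.P281.H167.LC.Iface
import Vale.Agent.P281.H167.GM.Tools
import Vale.Agent.P281.H368.GM.K2
import Vale.Agent.P299.H738.ElTrunc
import Vale.Agent.P299.H835.Final

/-! P281 (helper413): row LC3 `ConsPart`, conservation of the mass of `i∂∂̄v` off `{h = 0}`. -/

open scoped Manifold ContDiff Topology ComplexOrder
open Set Filter Vale.Agent.P281.J Vale.Agent.P272.K Vale.Agent.P272.K.AMP Vale.Agent.P299
open Vale.Agent.P299.H882 (J xi qf)
open Vale.Agent.P272.K.INT (IsClosedForm IsDensity intX)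

set_option linter.all false

noncomputable section

namespace Vale.Agent.P281.H413.LC

open Vale.Agent.P281.H713 Vale.Agent.P281.H713.SA Vale.Agent.P281.H713.KD Vale.Agent.P281.H716
open Vale.Agent.P281.H167.GM (mixD qf_det_mono)
open Vale.Agent.P299.H738.El (th deriv_th contDiff_th th_of_nonpos deriv_S_nonneg)

section mat

open scoped MatrixOrder

variable {n : ℕ}

lemma mixD_sum_right {ι : Type*} (s : Finset ι) (A : Matrix (Fin n) (Fin n) ℂ)
    (B : ι → Matrix (Fin n) (Fin n) ℂ) : mixD A (∑ i ∈ s, B i) = ∑ i ∈ s, mixD A (B i) := by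
  simp only [mixD, Matrix.mul_sum, Matrix.trace_sum, Complex.re_sum]

/-- monotonicity of the mixed discriminant -/
theorem mixD_mono {A E H : Matrix (Fin n) (Fin n) ℂ} (hA : A.PosDef) (hE : E.PosSemidef)
    (hH : H.PosSemidef) : mixD A H ≤ mixD (A + E) H := by
  obtain ⟨B, rfl⟩ : ∃ B : Matrix (Fin n) (Fin n) ℂ, H = B.conjTranspose * B :=
    CStarAlgebra.nonneg_iff_eq_star_mul_self.mp hH.nonneg
  have h1 : B.conjTranspose * B = ∑ k, Matrix.vecMulVec (star (B k)) (star (star (B k))) := by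
    ext i j
    rw [Matrix.sum_apply, Matrix.mul_apply]
    refine Finset.sum_congr rfl fun k _ => ?_
    simp [Matrix.vecMulVec_apply, Matrix.conjTranspose_apply]
  rw [h1, mixD_sum_right, mixD_sum_right]
  refine Finset.sum_le_sum fun k _ => ?_
  have h2 := qf_det_mono hA hE (star (B k)) zero_le_one
  rw [Complex.ofReal_one, one_smul] at h2
  have hAE : (A + E).PosDef := hA.add_posSemidef hE
  have h3 : mixD A (Matrix.vecMulVec (star (B k)) (star (star (B k)))) =
      qf A (star (B k)) * A.det.re := Vale.Agent.P281.H167.GM.mixD_eq hA _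
  have h4 : mixD (A + E) (Matrix.vecMulVec (star (B k)) (star (star (B k)))) =
      qf (A + E) (star (B k)) * (A + E).det.re := Vale.Agent.P281.H167.GM.mixD_eq hAE _
  rw [h3, h4]
  exact h2

lemma mixD_smul_left (A H : Matrix (Fin n) (Fin n) ℂ) (c : ℝ) :
    mixD ((c : ℂ) • A) H = c ^ (n - 1) * mixD A H := by
  rw [mixD, Matrix.adjugate_smul, Matrix.smul_mul, Matrix.trace_smul, smul_eq_mul, mixD,
    Fintype.card_fin, ← Complex.ofReal_pow, Complex.re_ofReal_mul]

end mat

section cut

variable {n : ℕ} {X : Type} [TopologicalSpace X] [ChartedSpace (Cm n) X]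

/-- the Hessian only depends on the germ -/
lemma hess_congr {u v : X → ℝ} {e : Chart n X} {x : X} (hx : At e x) (h : u =ᶠ[𝓝 x] v) :
    hess u e (e x) = hess v e (e x) := by
  refine cHess_congr ?_
  have h1 : Tendsto e.symm (𝓝 (e x)) (𝓝 x) := by
    have := (e.continuousAt_symm (e.map_source hx.2)).tendsto
    rwa [e.left_inv hx.2] at this
  exact h1.eventually h

lemma lapX_congr {g : D.FormM n X} {u v : X → ℝ} {x : X} (h : u =ᶠ[𝓝 x] v) :
    lapX g u x = lapX g v x := by
  rw [lapX_def', lapX_def', hess_congr (at_chartAt x) h]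

/-- a function which is smooth on an open set, times a cut-off function -/
lemma smooth_cut {ψ v : X → ℝ} (hψ : SmoothFn (n := n) ψ) {h : X → ℝ} (hh : Continuous h)
    (hh0 : ∀ x, 0 ≤ h x) (c : ℝ) (hc : 0 < c) (hz : ∀ x, h x < c → ψ x = 0)
    (hv : ∀ (e : Chart n X) x, At e x → 0 < h x → ContDiffAt ℝ ∞ (fun z => v (e.symm z)) (e x)) :
    SmoothFn (n := n) (fun x => ψ x * v x) := by
  intro e x hx
  by_cases h0 : 0 < h x
  · exact (hψ e x hx).mul (hv e x hx h0)
  · have h1 : h x < c := by linarith [not_lt.1 h0]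
    have h2 : ∀ᶠ y in 𝓝 x, ψ y * v y = 0 := by
      filter_upwards [hh.continuousAt.eventually_lt continuousAt_const h1] with y hy
      rw [hz y hy, zero_mul]
    have h3 : Tendsto e.symm (𝓝 (e x)) (𝓝 x) := by
      have := (e.continuousAt_symm (e.map_source hx.2)).tendsto
      rwa [e.left_inv hx.2] at this
    refine (contDiffAt_const (c := (0 : ℝ))).congr_of_eventuallyEq ?_
    exact h3.eventually h2

end cut

/-- **Row LC3.** -/
theorem consPart : Vale.Agent.P281.H167.LC.ConsPart := by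
  classical
  intro n X _ _ _ _ _ _ G hG U hU hgU h hh h0 C hC v hv η hηc hη hηs ε hε hε1
  have hhc : Continuous h := sm_continuous hh
  have hUc : Continuous U := sm_continuous hU
  have hgUH := hgU.toIsHermitian
  have hGH := hG.toIsHermitian
  by_cases hne : (tsupport η).Nonempty
  swap
  · have hη0 : ∀ x, η x = 0 := by
      intro x
      by_contra hx
      exact hne ⟨x, subset_tsupport _ hx⟩
    refine ⟨fun _ => 0, smoothFn_const 0, fun _ => ⟨le_rfl, zero_le_one⟩, ?_, ?_⟩
    · intro x hx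
      have : tsupport (fun _ : X => (0 : ℝ)) = ∅ := by
        rw [tsupport_eq_empty_iff]; rfl
      rw [this] at hx
      exact hx.elim
    · have e1 : J G (fun x => η x * lapX G v x) = 0 := by
        rw [H882.J_congr (f' := fun _ => 0 * (0 : ℝ)) (fun x => by rw [hη0 x]; ring),
          H882.J_const_mul, zero_mul]
      have e2 : J (addH G U) (fun x => (0 : ℝ) * lapX (addH G U) v x) = 0 := by
        rw [H882.J_const_mul, zero_mul]
      rw [e1, e2, mul_zero]
  obtain ⟨x₁, hx₁⟩ := hne
  -- constants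
  have hcpt : IsCompact (tsupport η) := (isClosed_tsupport η).isCompact
  obtain ⟨xm, hxm, hmin⟩ := hcpt.exists_isMinOn ⟨x₁, hx₁⟩ hhc.continuousOn
  obtain ⟨c0, hc0⟩ : ∃ c0, c0 = h xm := ⟨_, rfl⟩
  have hc0p : 0 < c0 := hc0 ▸ hηs xm hxm
  have hc0le : ∀ x ∈ tsupport η, c0 ≤ h x := fun x hx => hc0 ▸ hmin hx
  obtain ⟨xM, -, hmax⟩ := isCompact_univ.exists_isMaxOn ⟨x₁, mem_univ x₁⟩ hhc.continuousOn
  obtain ⟨HM, hHM⟩ : ∃ HM, HM = h xM := ⟨_, rfl⟩
  have hHle : ∀ x, h x ≤ HM := fun x => hHM ▸ hmax (mem_univ x)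
  have hHp : 0 < HM := hc0p.trans_le ((hc0le x₁ hx₁).trans (hHle x₁))
  obtain ⟨UM, hUM⟩ : ∃ UM, ∀ x, |U x| ≤ UM := by
    obtain ⟨B, hB⟩ := (isCompact_univ.image hUc).isBounded.exists_norm_le
    exact ⟨B, fun x => hB _ (mem_image_of_mem _ (mem_univ x))⟩
  obtain ⟨lam, hlam, hlam1, hlam2⟩ : ∃ lam : ℝ, 0 < lam ∧ lam * |C| ≤ ε ∧
      lam * |Real.log c0 - Real.log (HM + 1)| ≤ 1 / 2 := by
    obtain ⟨q, hq⟩ : ∃ q, q = |Real.log c0 - Real.log (HM + 1)| := ⟨_, rfl⟩
    have hq0 : 0 ≤ q := hq ▸ abs_nonneg _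
    have hC0 := abs_nonneg C
    refine ⟨min (ε / (|C| + 1)) (1 / 2 / (q + 1)), by positivity, ?_, ?_⟩
    · calc min (ε / (|C| + 1)) (1 / 2 / (q + 1)) * |C| ≤ ε / (|C| + 1) * |C| :=
          mul_le_mul_of_nonneg_right (min_le_left _ _) hC0
        _ ≤ ε / (|C| + 1) * (|C| + 1) := by
          apply mul_le_mul_of_nonneg_left (by linarith) (by positivity)
        _ = ε := by field_simp
    · rw [← hq]
      calc min (ε / (|C| + 1)) (1 / 2 / (q + 1)) * q ≤ 1 / 2 / (q + 1) * q :=
          mul_le_mul_of_nonneg_right (min_le_right _ _) hq0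
        _ ≤ 1 / 2 / (q + 1) * (q + 1) := by
          apply mul_le_mul_of_nonneg_left (by linarith) (by positivity)
        _ = 1 / 2 := by field_simp
  obtain ⟨a1, ha1⟩ : ∃ a1, a1 = UM + 2 := ⟨_, rfl⟩
  obtain ⟨δ, hδ, hδ1, hδ2⟩ : ∃ δ : ℝ, 0 < δ ∧ δ ≤ 1 ∧
      a1 + lam * (Real.log (2 * δ) - Real.log HM) < -UM := by
    obtain ⟨L, hL⟩ : ∃ L, L = Real.log HM - (UM + a1) / lam := ⟨_, rfl⟩
    refine ⟨min 1 (Real.exp (L - 1) / 2), by positivity, min_le_left _ _, ?_⟩
    have h1 : Real.log (2 * min 1 (Real.exp (L - 1) / 2)) ≤ L - 1 := by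
      rw [Real.log_le_iff_le_exp (by positivity)]
      have := min_le_right 1 (Real.exp (L - 1) / 2)
      linarith
    have h2 : lam * (Real.log (2 * min 1 (Real.exp (L - 1) / 2)) - Real.log HM) <
        lam * (-((UM + a1) / lam)) := by
      apply mul_lt_mul_of_pos_left _ hlam
      linarith
    have h3 : lam * (-((UM + a1) / lam)) = -(UM + a1) := by field_simp
    linarith
  -- the gluing function
  obtain ⟨l, hl⟩ : ∃ l : X → ℝ, l = fun x => Real.log (h x + δ) := ⟨_, rfl⟩
  have hhδ : ∀ x, 0 < h x + δ := fun x => by linarith [h0 x]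
  have hls : SmoothFn (n := n) l := by
    rw [hl]; exact sm_log (sm_add hh (smoothFn_const δ)) hhδ
  obtain ⟨w, hw⟩ : ∃ w : X → ℝ, w = fun x => lam * l x + (a1 - lam * Real.log (HM + δ)) := ⟨_, rfl⟩
  have hws : SmoothFn (n := n) w := by
    rw [hw]; exact sm_add (sm_const_mul lam hls) (smoothFn_const _)
  obtain ⟨q, hq⟩ : ∃ q : X → ℝ, q = fun x => w x - U x := ⟨_, rfl⟩
  have hqs : SmoothFn (n := n) q := by rw [hq]; exact sm_sub hws hU
  obtain ⟨b, hb⟩ : ∃ b : X → ℝ, b = fun x => th (q x) := ⟨_, rfl⟩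
  have hbs : SmoothFn (n := n) b := by
    rw [hb]; exact sm_comp (φ := th) (fun x => contDiff_th.contDiffAt) hqs
  -- values of `q`
  have hq1 : ∀ x ∈ tsupport η, 1 ≤ q x := by
    intro x hx
    have e1 : Real.log c0 ≤ l x := by
      rw [hl]; exact Real.log_le_log hc0p (by linarith [hc0le x hx])
    have e2 : Real.log (HM + δ) ≤ Real.log (HM + 1) := Real.log_le_log (by linarith) (by linarith)
    have e3 : lam * (Real.log c0 - Real.log (HM + 1)) ≤ lam * (l x - Real.log (HM + δ)) :=
      mul_le_mul_of_nonneg_left (by linarith) hlam.le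
    have e4 : -(1 / 2) ≤ lam * (Real.log c0 - Real.log (HM + 1)) := by
      have := neg_abs_le (Real.log c0 - Real.log (HM + 1))
      have := mul_le_mul_of_nonneg_left this hlam.le
      linarith
    have e5 := (abs_le.1 (hUM x)).2
    rw [hq, hw]
    show 1 ≤ lam * l x + (a1 - lam * Real.log (HM + δ)) - U x
    linarith
  have hq0 : ∀ x, h x ≤ δ → q x < 0 := by
    intro x hx
    have e1 : l x ≤ Real.log (2 * δ) := by
      rw [hl]; exact Real.log_le_log (hhδ x) (by linarith)
    have e2 : Real.log HM ≤ Real.log (HM + δ) := Real.log_le_log hHp (by linarith)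
    have e3 : lam * (l x - Real.log (HM + δ)) ≤ lam * (Real.log (2 * δ) - Real.log HM) :=
      mul_le_mul_of_nonneg_left (by linarith) hlam.le
    have e5 := (abs_le.1 (hUM x)).1
    rw [hq, hw]
    show lam * l x + (a1 - lam * Real.log (HM + δ)) - U x < 0
    linarith
  have hηδ : ∀ x ∈ tsupport η, δ < h x := by
    intro x hx
    by_contra hc
    have := hq0 x (not_lt.1 hc)
    have := hq1 x hx
    linarith
  -- the glued metric
  obtain ⟨Gk, hGk⟩ : ∃ Gk : D.FormM n X, Gk = addH G (fun x => U x + b x) := ⟨_, rfl⟩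
  have hGk1 : ∀ (e : Chart n X) x, At e x → Gk e (e x) = addH G U e (e x) + hess b e (e x) := by
    intro e x hx
    have e1 : Gk e (e x) = G e (e x) + hess (fun x => U x + b x) e (e x) := by rw [hGk]; rfl
    rw [e1, hess_add' hU hbs hx, ← add_assoc]
    rfl
  have hlap : ∀ (e : Chart n X) x, At e x →
      ((ε : ℂ) • G e (e x) + (lam : ℂ) • hess l e (e x)).PosSemidef := by
    intro e x hx
    have e1 : (hess l e (e x) + (C : ℂ) • G e (e x)).PosSemidef := by
      rw [hl]; exact hC δ hδ hδ1 e x hx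
    have e2 := e1.smul (show (0 : ℂ) ≤ (lam : ℂ) by exact_mod_cast hlam.le)
    have e3 : 0 ≤ ε - lam * C := by
      have := mul_le_mul_of_nonneg_left (le_abs_self C) hlam.le
      linarith
    have e4 := (hG.posDef e x hx).posSemidef.smul
      (show (0 : ℂ) ≤ ((ε - lam * C : ℝ) : ℂ) by exact_mod_cast e3)
    have e5 := e2.add e4
    have e6 : (lam : ℂ) • (hess l e (e x) + (C : ℂ) • G e (e x)) +
        ((ε - lam * C : ℝ) : ℂ) • G e (e x) = (ε : ℂ) • G e (e x) + (lam : ℂ) • hess l e (e x) := by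
      rw [smul_add, smul_smul]
      push_cast
      rw [sub_smul]
      abel
    rwa [e6] at e5
  have hqh : ∀ (e : Chart n X) x, At e x →
      hess q e (e x) = (lam : ℂ) • hess l e (e x) - hess U e (e x) := by
    intro e x hx
    rw [hq, hess_sub' hws hU hx, hw, hess_add' (sm_const_mul lam hls) (smoothFn_const _) hx,
      hess_const_mul' lam hls hx, hess_const', add_zero]
  obtain ⟨S, hS⟩ : ∃ S : X → ℝ, S = fun x => Real.smoothTransition (q x) := ⟨_, rfl⟩
  have hS0 : ∀ x, 0 ≤ S x := fun x => by rw [hS]; exact Real.smoothTransition.nonneg _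
  have hS1 : ∀ x, S x ≤ 1 := fun x => by rw [hS]; exact Real.smoothTransition.le_one _
  -- lower bound of the glued metric
  have hGk2 : ∀ (e : Chart n X) x, At e x →
      (Gk e (e x) - (((1 - S x : ℝ) : ℂ) • addH G U e (e x) +
        ((S x * (1 - ε) : ℝ) : ℂ) • G e (e x))).PosSemidef := by
    intro e x hx
    have e1 : hess b e (e x) = ((S x : ℝ) : ℂ) • hess q e (e x) +
        ((deriv Real.smoothTransition (q x) : ℝ) : ℂ) • dd q q e (e x) := by
      rw [hb, hess_comp' (φ := th) (contDiff_th.contDiffAt.of_le (by norm_cast)) hqs hx, deriv_th, hS]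
    have e2 : Gk e (e x) - (((1 - S x : ℝ) : ℂ) • addH G U e (e x) +
        ((S x * (1 - ε) : ℝ) : ℂ) • G e (e x)) =
        ((S x : ℝ) : ℂ) • ((ε : ℂ) • G e (e x) + (lam : ℂ) • hess l e (e x)) +
        ((deriv Real.smoothTransition (q x) : ℝ) : ℂ) • dd q q e (e x) := by
      have e3 : addH G U e (e x) = G e (e x) + hess U e (e x) := rfl
      rw [hGk1 e x hx, e1, hqh e x hx, e3]
      ext i j
      simp only [Matrix.add_apply, Matrix.sub_apply, Matrix.smul_apply, smul_eq_mul]
      push_cast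
      ring
    rw [e2]
    refine ((hlap e x hx).smul (show (0 : ℂ) ≤ ((S x : ℝ) : ℂ) by exact_mod_cast hS0 x)).add ?_
    have e4 : (dd q q e (e x)).PosSemidef := by
      rw [dd_eq_gm]; exact gm_self_posSemidef _ _
    exact e4.smul (show (0 : ℂ) ≤ ((deriv Real.smoothTransition (q x) : ℝ) : ℂ) by
      exact_mod_cast deriv_S_nonneg _)
  have hGkpos : ∀ (e : Chart n X) x, At e x → (Gk e (e x)).PosDef := by
    intro e x hx
    have hp1 := hgU.posDef e x hx
    have hp2 := hG.posDef e x hx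
    have e1 : (((1 - S x : ℝ) : ℂ) • addH G U e (e x) +
        ((S x * (1 - ε) : ℝ) : ℂ) • G e (e x)).PosDef := by
      rcases (hS0 x).lt_or_eq with hs | hs
      · have h2 : (0 : ℂ) < ((S x * (1 - ε) : ℝ) : ℂ) := by
          have : 0 < S x * (1 - ε) := mul_pos hs (by linarith)
          exact_mod_cast this
        have h1 : (0 : ℂ) ≤ ((1 - S x : ℝ) : ℂ) := by
          have : 0 ≤ 1 - S x := by linarith [hS1 x]
          exact_mod_cast this
        rw [add_comm]
        exact (hp2.smul h2).add_posSemidef (hp1.posSemidef.smul h1)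
      · rw [← hs]
        simpa using hp1
    have e2 := e1.add_posSemidef (hGk2 e x hx)
    rwa [add_sub_cancel] at e2
  have hGkK : IsKahler Gk := by
    rw [hGk]
    refine Vale.Agent.P299.H835.isKahler_addH hG (sm_add hU hbs) fun e x hx => ?_
    rw [← hGk]
    exact hGkpos e x hx
  have hGkH := hGkK.toIsHermitian
  have hGkη : ∀ (e : Chart n X) x, At e x → x ∈ tsupport η →
      (Gk e (e x) - ((1 - ε : ℝ) : ℂ) • G e (e x)).PosSemidef := by
    intro e x hx hxη
    have e1 : S x = 1 := by rw [hS]; exact Real.smoothTransition.one_of_one_le (hq1 x hxη)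
    have e2 := hGk2 e x hx
    rw [e1] at e2
    simpa using e2
  -- the two cut-off functions
  obtain ⟨ψ, hψ⟩ : ∃ ψ : X → ℝ, ψ = fun x => Real.smoothTransition (4 / δ * h x - 1) := ⟨_, rfl⟩
  obtain ⟨φ, hφ⟩ : ∃ φ : X → ℝ, φ = fun x => Real.smoothTransition (16 / δ * h x - 1) := ⟨_, rfl⟩
  have hψs : SmoothFn (n := n) ψ := by
    rw [hψ]
    exact sm_comp (φ := fun t => Real.smoothTransition (4 / δ * t - 1))
      (fun x => (Real.smoothTransition.contDiff.comp (by fun_prop)).contDiffAt) hh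
  have hφs : SmoothFn (n := n) φ := by
    rw [hφ]
    exact sm_comp (φ := fun t => Real.smoothTransition (16 / δ * t - 1))
      (fun x => (Real.smoothTransition.contDiff.comp (by fun_prop)).contDiffAt) hh
  have hψ01 : ∀ x, ψ x ∈ Icc (0 : ℝ) 1 := fun x => by
    rw [hψ]; exact ⟨Real.smoothTransition.nonneg _, Real.smoothTransition.le_one _⟩
  have hψ1 : ∀ x, δ / 2 ≤ h x → ψ x = 1 := by
    intro x hx
    rw [hψ]
    refine Real.smoothTransition.one_of_one_le ?_
    have : 4 / δ * (δ / 2) ≤ 4 / δ * h x := mul_le_mul_of_nonneg_left hx (by positivity)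
    have e : 4 / δ * (δ / 2) = 2 := by field_simp; norm_num
    linarith
  have hψ0 : ∀ x, h x ≤ δ / 4 → ψ x = 0 := by
    intro x hx
    rw [hψ]
    refine Real.smoothTransition.zero_of_nonpos ?_
    have : 4 / δ * h x ≤ 4 / δ * (δ / 4) := mul_le_mul_of_nonneg_left hx (by positivity)
    have e : 4 / δ * (δ / 4) = 1 := by field_simp
    linarith
  have hφ1 : ∀ x, δ / 8 ≤ h x → φ x = 1 := by
    intro x hx
    rw [hφ]
    refine Real.smoothTransition.one_of_one_le ?_
    have : 16 / δ * (δ / 8) ≤ 16 / δ * h x := mul_le_mul_of_nonneg_left hx (by positivity)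
    have e : 16 / δ * (δ / 8) = 2 := by field_simp; norm_num
    linarith
  have hφ0 : ∀ x, h x ≤ δ / 16 → φ x = 0 := by
    intro x hx
    rw [hφ]
    refine Real.smoothTransition.zero_of_nonpos ?_
    have : 16 / δ * h x ≤ 16 / δ * (δ / 16) := mul_le_mul_of_nonneg_left hx (by positivity)
    have e : 16 / δ * (δ / 16) = 1 := by field_simp
    linarith
  have hψc : Continuous ψ := sm_continuous hψs
  obtain ⟨V, hV⟩ : ∃ V : X → ℝ, V = fun x => φ x * v x := ⟨_, rfl⟩
  have hVs : SmoothFn (n := n) V := by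
    rw [hV]
    exact smooth_cut hφs hhc h0 (δ / 16) (by positivity) (fun x hx => hφ0 x hx.le)
      fun e x hx h1 => (hv e x hx h1).1
  have hVv : ∀ x, δ / 8 < h x → V =ᶠ[𝓝 x] v := by
    intro x hx
    filter_upwards [continuousAt_const.eventually_lt hhc.continuousAt hx] with y hy
    rw [hV]
    show φ y * v y = v y
    rw [hφ1 y hy.le, one_mul]
  have hψV : SmoothFn (n := n) (fun x => ψ x * V x) := sm_mul hψs hVs
  have hlapV : ∀ (g : D.FormM n X) x, ψ x ≠ 0 → lapX g V x = lapX g v x := by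
    intro g x hx
    refine lapX_congr (hVv x ?_)
    by_contra hc
    exact hx (hψ0 x (by linarith [not_lt.1 hc]))
  have hposV : ∀ (e : Chart n X) x, At e x → δ / 8 < h x → (hess V e (e x)).PosSemidef := by
    intro e x hx h1
    rw [hess_congr hx (hVv x h1)]
    exact (hv e x hx (by linarith)).2
  have hJl : ∀ {g : D.FormM n X}, IsKahler g → Continuous fun x => ψ x * lapX g V x :=
    fun hg => hψc.mul (H882.cont_lap hg.toIsHermitian hVs)
  refine ⟨ψ, hψs, hψ01, ?_, ?_⟩
  · intro x hx
    have h1 : tsupport ψ ⊆ {x | δ / 4 ≤ h x} := by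
      refine closure_minimal ?_ (isClosed_le continuous_const hhc)
      intro y hy
      by_contra hc
      exact hy (hψ0 y (not_le.1 hc).le)
    have := h1 hx
    have h2 : δ / 4 ≤ h x := this
    linarith
  -- conservation of mass
  have cons : J Gk (fun x => ψ x * lapX Gk V x) =
      J (addH G U) (fun x => ψ x * lapX (addH G U) V x) := by
    have e1 : J Gk (fun x => ψ x * lapX Gk V x - lapX Gk (fun x => ψ x * V x) x) =
        J Gk (fun x => ψ x * lapX Gk V x) := by
      rw [H882.J_sub hGkH (hJl hGkK) (H882.cont_lap hGkH hψV), H882.J_lap hGkK hψV, sub_zero]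
    have e2 : J (addH G U) (fun x => ψ x * lapX (addH G U) V x -
        lapX (addH G U) (fun x => ψ x * V x) x) =
        J (addH G U) (fun x => ψ x * lapX (addH G U) V x) := by
      rw [H882.J_sub hgUH (hJl hgU) (H882.cont_lap hgUH hψV), H882.J_lap hgU hψV, sub_zero]
    rw [← e1, ← e2]
    unfold J
    refine INT.intX_congr fun e x hx => ?_
    rw [hx.left_inv]
    beta_reduce
    rcases lt_or_ge (δ / 2) (h x) with hx1 | hx1
    · have e3 : (fun x => ψ x * V x) =ᶠ[𝓝 x] V := by
        filter_upwards [continuousAt_const.eventually_lt hhc.continuousAt hx1] with y hy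
        rw [hψ1 y hy.le, one_mul]
      rw [lapX_congr e3, lapX_congr e3, hψ1 x hx1.le]
      ring
    · have hx2 : h x < δ := by linarith
      have e4 : b =ᶠ[𝓝 x] fun _ => 0 := by
        filter_upwards [hhc.continuousAt.eventually_lt continuousAt_const hx2] with y hy
        rw [hb]
        exact th_of_nonpos (hq0 y hy.le).le
      have e5 : ∀ (e : Chart n X), At e x → Gk e (e x) = addH G U e (e x) := by
        intro e hx
        rw [hGk1 e x hx, hess_congr hx e4, hess_const', add_zero]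
      have e6 : ∀ u : X → ℝ, lapX Gk u x = lapX (addH G U) u x := by
        intro u
        rw [lapX_def', lapX_def', e5 _ (at_chartAt x)]
      rw [e5 e hx, e6, e6]
  -- pointwise comparison
  have hηlap : ∀ x, η x * lapX G v x = η x * lapX G V x := by
    intro x
    by_cases hx : η x = 0
    · rw [hx, zero_mul, zero_mul]
    · have h1 : x ∈ tsupport η := subset_tsupport _ hx
      rw [lapX_congr (hVv x (by linarith [hηδ x h1]))]
  have hfin : (1 - ε) ^ n * J G (fun x => η x * lapX G v x) ≤ J Gk (fun x => ψ x * lapX Gk V x) := by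
    rw [H882.J_congr hηlap, ← H882.J_const_mul]
    unfold J
    have c1 : Continuous fun x => (1 - ε) ^ n * (η x * lapX G V x) :=
      continuous_const.mul (hηc.mul (H882.cont_lap hGH hVs))
    refine INT.intX_mono (H882.J_dens hGH c1) (H882.J_dens hGkH (hJl hGkK)) fun e x hx => ?_
    rw [hx.left_inv]
    have m1 : lapX G V x * (G e (e x)).det.re = mixD (G e (e x)) (hess V e (e x)) := by
      rw [lapX_eq hGH hVs hx, Vale.Agent.P281.H167.GM.mixD_eq (hG.posDef e x hx)]
      rfl
    have m2 : lapX Gk V x * (Gk e (e x)).det.re = mixD (Gk e (e x)) (hess V e (e x)) := by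
      rw [lapX_eq hGkH hVs hx, Vale.Agent.P281.H167.GM.mixD_eq (hGkpos e x hx)]
      rfl
    have m3 : (1 - ε) ^ n * (η x * lapX G V x) * (G e (e x)).det.re =
        η x * ((1 - ε) ^ n * mixD (G e (e x)) (hess V e (e x))) := by rw [← m1]; ring
    have m4 : ψ x * lapX Gk V x * (Gk e (e x)).det.re =
        ψ x * mixD (Gk e (e x)) (hess V e (e x)) := by rw [← m2]; ring
    rw [m3, m4]
    by_cases hx0 : η x = 0
    · rw [hx0, zero_mul]
      by_cases hψx : ψ x = 0
      · rw [hψx, zero_mul]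
      · refine mul_nonneg (hψ01 x).1 (Vale.Agent.P281.H368.GM.mixD_nonneg (hGkpos e x hx).posSemidef
          (hposV e x hx ?_))
        by_contra hc
        exact hψx (hψ0 x (by linarith [not_lt.1 hc]))
    · have h1 : x ∈ tsupport η := subset_tsupport _ hx0
      have h2 := hηδ x h1
      have hH := hposV e x hx (by linarith)
      have hε0 : 0 < 1 - ε := by linarith
      have h3 := mixD_mono ((hG.posDef e x hx).smul
        (show (0 : ℂ) < ((1 - ε : ℝ) : ℂ) by exact_mod_cast hε0)) (hGkη e x hx h1) hH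
      rw [add_sub_cancel, mixD_smul_left] at h3
      have h4 := Vale.Agent.P281.H368.GM.mixD_nonneg (hG.posDef e x hx).posSemidef hH
      have h5 : (1 - ε) ^ n ≤ (1 - ε) ^ (n - 1) :=
        pow_le_pow_of_le_one hε0.le (by linarith) (Nat.sub_le n 1)
      have h6 : 0 ≤ (1 - ε) ^ n * mixD (G e (e x)) (hess V e (e x)) := by positivity
      rw [hψ1 x (by linarith), one_mul]
      calc η x * ((1 - ε) ^ n * mixD (G e (e x)) (hess V e (e x))) ≤
            1 * ((1 - ε) ^ n * mixD (G e (e x)) (hess V e (e x))) :=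
            mul_le_mul_of_nonneg_right (hη x).2 h6
        _ ≤ (1 - ε) ^ (n - 1) * mixD (G e (e x)) (hess V e (e x)) := by
            rw [one_mul]; exact mul_le_mul_of_nonneg_right h5 h4
        _ ≤ _ := h3
  refine hfin.trans (le_of_eq ?_)
  rw [cons]
  refine H882.J_congr fun x => ?_
  by_cases hx : ψ x = 0
  · rw [hx, zero_mul, zero_mul]
  · rw [hlapV _ x hx]

end Vale.Agent.P281.H413.LC
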